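import Crest.Agent.X262.Gen42.Two
import Crest.Agent.X262.Vb37.Univ

/-!
# Row 262, DROP-ORD (helper23), part 2: the two sides of the chart of the universal datum

* `sh` : the datum in the coordinate `(z - A) / ρ`;
* `tc_ne` : all Taylor coefficients at `A` are nonzero;
* `cp_g1`, `cp_g2` : the two sides are coprime;
* `eq_top` : the field of the chart and `t` generate.
-/

set_option autoImplicit false
set_option linter.unusedSectionVars false

noncomputable section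

namespace Crest.Agent.X262.Ord23

open Crest.Agent.X277 Crest.Agent.X277.BD Crest.Agent.X262.Vb Crest.Agent.X262.Vb37
open Crest.Agent.X262.Drop30 Crest.Agent.X262.Gen42 Polynomial
open Crest.Agent.X262.Bub96 (hv)

variable {J : Type} [Fintype J] [DecidableEq J] {io : J → Type} [∀ j, Fintype (io j)]
  [∀ j, DecidableEq (io j)] {K : Type} [Field K] [Algebra ℂ K] {d m n : J → ℕ} {M : Type}

theorem mob_sc {A ρ : K} {r : ℕ} {f : K[X]} (h : f.natDegree ≤ r) :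
    C 1 * mob r !![ρ, A; 0, 1] f = sc A ρ f := by
  have := inf_of_alg K
  refine Polynomial.funext fun s => ?_
  have e : Matrix.mulVec !![ρ, A; 0, 1] (hx (some s)) = hx (some (A + ρ * s)) := by
    ext i
    fin_cases i <;> simp [hx, Matrix.mulVec, dotProduct, Fin.sum_univ_two, add_comm]
  rw [map_one, one_mul, eval_mob, e, hev_hx h, eval_sc]
  rfl

theorem det_ne {A ρ : K} (hρ : ρ ≠ 0) : (!![ρ, A; 0, 1] : Matrix (Fin 2) (Fin 2) K).det ≠ 0 := by
  simpa using hρ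

/-- the datum in the coordinate `(z - A) / ρ` -/
def sh (ξ : Dat io d M K) (A ρ : K) (hρ : ρ ≠ 0) : Dat io d M K where
  f j i := sc A ρ (ξ.f j i)
  x q := nx A ρ (ξ.x q)
  cp := by
    have h := cp_mob ξ.cp (det_ne (A := A) hρ) (c := fun _ => 1) fun _ => one_ne_zero
    simp only [mob_sc (ξ.cp.1 _ _)] at h
    exact h

theorem eqv_sh (ξ : Dat io d M K) (A ρ : K) (hρ : ρ ≠ 0) : ξ.Eqv (sh ξ A ρ hρ) := by
  refine ⟨_, fun _ => 1, det_ne (A := A) hρ, fun _ => one_ne_zero,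
    fun j i => (mob_sc (ξ.cp.1 j i)).symm, fun q => ?_⟩
  change ∃ u : K, Matrix.mulVec _ (hx (nx A ρ (ξ.x q))) = _
  rcases ξ.x q with _ | y
  · refine ⟨ρ, ?_⟩
    ext i
    fin_cases i <;> simp [hx, nx, Matrix.mulVec, dotProduct, Fin.sum_univ_two]
  · refine ⟨1, ?_⟩
    ext i
    fin_cases i <;> simp [hx, nx, Matrix.mulVec, dotProduct, Fin.sum_univ_two, mul_div_cancel₀, hρ]

theorem trans_mul {E : IntermediateField ℂ K} {x e : K} (h : Transcendental E x) (he : e ∈ E)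
    (h0 : e ≠ 0) : Transcendental E (x * e) := fun h1 => h (by
  have h2 := h1.mul (isAlgebraic_algebraMap (⟨e⁻¹, E.inv_mem he⟩ : E))
  rwa [show x * e * algebraMap E K ⟨e⁻¹, E.inv_mem he⟩ = x from mul_inv_cancel_right₀ h0 x] at h2)

theorem exists_lift {E : IntermediateField ℂ K} {p : K[X]} (hp : ∀ l, p.coeff l ∈ E) :
    ∃ p' : E[X], p'.map (algebraMap E K) = p :=
  (lifts_iff_coeff_lifts p).2 fun l => ⟨⟨_, hp l⟩, rfl⟩

/-- a free constant term prevents common roots -/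
theorem cop {E : IntermediateField ℂ K} {p q : K[X]} (h0 : p ≠ 0) (hp : ∀ l, p.coeff l ∈ E)
    (hq : ∀ l, l ≠ 0 → q.coeff l ∈ E) (ht : Transcendental E (q.coeff 0))
    (r : AlgebraicClosure K) (h1 : aeval r p = 0) : aeval r q ≠ 0 := fun h2 => by
  obtain ⟨p', rfl⟩ := exists_lift hp
  obtain ⟨q', hq'⟩ := exists_lift (E := E) (p := q - C (q.coeff 0)) fun l => by
    rw [coeff_sub, coeff_C]
    split_ifs with h
    · rw [h, sub_self]; exact E.zero_mem
    · rw [sub_zero]; exact hq l h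
  rw [aeval_map_algebraMap] at h1
  have hr : IsAlgebraic E r := ⟨p', fun h => h0 (by rw [h, Polynomial.map_zero]), h1⟩
  have h3 : IsIntegral E (aeval r q') :=
    adjoin_le_integralClosure hr.isIntegral (aeval_mem_adjoin_singleton _ _)
  rw [← aeval_map_algebraMap K, hq', map_sub, h2, aeval_C, zero_sub] at h3
  have h4 := h3.neg.isAlgebraic
  rw [neg_neg, isAlgebraic_algebraMap_iff (algebraMap K (AlgebraicClosure K)).injective] at h4
  exact ht h4

theorem cp_of {r : J → ℕ} {G : (j : J) → io j → K[X]} (i₀ : (j : J) → io j)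
    (h1 : ∀ j i, (G j i).natDegree ≤ r j) (h2 : ∀ j, (G j (i₀ j)).coeff (r j) ≠ 0)
    (h3 : ∀ j, r j ≠ 0 → ∃ (i : io j) (c : K) (E : IntermediateField ℂ K), c ≠ 0 ∧
      (∀ l, c * (G j (i₀ j)).coeff l ∈ E) ∧ (∀ l, l ≠ 0 → c * (G j i).coeff l ∈ E) ∧
      Transcendental E (c * (G j i).coeff 0)) : Cp r G := by
  refine cp_of_closed (algebraMap K (AlgebraicClosure K)) h1 fun j s => ?_
  have h4 : ((G j (i₀ j)).map (algebraMap K (AlgebraicClosure K))).coeff (r j) ≠ 0 := by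
    rw [coeff_map]
    exact (_root_.map_ne_zero _).2 (h2 j)
  rcases s with _ | s
  · exact ⟨i₀ j, h4⟩
  by_cases h0 : r j = 0
  · refine ⟨i₀ j, ?_⟩
    have h5 := h1 j (i₀ j)
    rw [h0] at h4 h5
    change eval s _ ≠ 0
    rw [eq_C_of_natDegree_le_zero (natDegree_map_le.trans h5), eval_C]
    exact h4
  obtain ⟨i, c, E, hc, e1, e2, e3⟩ := h3 j h0
  by_contra hn
  push Not at hn
  have h5 : ∀ i, aeval s (C c * G j i) = 0 := fun i => by
    have h6 : aeval s (G j i) = 0 := by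
      rw [← eval_map_algebraMap]
      exact hn i
    rw [map_mul, h6, mul_zero]
  refine cop (E := E) (p := C c * G j (i₀ j)) (q := C c * G j i) ?_ ?_ ?_ ?_ s (h5 _) (h5 _)
  · exact mul_ne_zero (C_ne_zero.2 hc) fun h => h2 j (by rw [h, coeff_zero])
  · simpa only [coeff_C_mul] using e1
  · simpa only [coeff_C_mul] using e2
  · simpa only [coeff_C_mul] using e3

variable [Fintype M] {ξ : Dat io d M K} {o a b e : M} {A R : ℂ} {B : K} {S : Set M}

theorem rho_ne (h : Shp ξ o a b e A R B) : algebraMap ℂ K (R - A) ≠ 0 :=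
  (_root_.map_ne_zero _).2 (sub_ne_zero.2 h.ae)

theorem t_ne (h : Shp ξ o a b e A R B) : B - algebraMap ℂ K A ≠ 0 := sub_ne_zero.2 h.ab

theorem nm3_sh (h : Shp ξ o a b e A R B) :
    Nm3 (sh ξ (algebraMap ℂ K A) _ (rho_ne h)) o a e := by
  refine ⟨?_, ?_, ?_⟩
  · change nx _ _ (ξ.x o) = _
    rw [h.o]; rfl
  · change nx _ _ (ξ.x a) = _
    rw [h.a, nx, Option.map_some, sub_self, zero_div]
  · change nx _ _ (ξ.x e) = _
    rw [h.e, nx, Option.map_some, ← map_sub, div_self (rho_ne h)]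

theorem univ_sh (h : Shp ξ o a b e A R B) (hu : ξ.Univ) :
    (sh ξ (algebraMap ℂ K A) _ (rho_ne h)).Univ :=
  univ_of_eqv hu (eqv_sh _ _ _ _) (nm3_sh h)

/-- Taylor coefficients at `A` -/
abbrev tc (ξ : Dat io d M K) (A : ℂ) (j : J) (i : io j) (l : ℕ) : K :=
  (taylor (algebraMap ℂ K A) (ξ.f j i)).coeff l

theorem tc_ne (h : Shp ξ o a b e A R B) (hu : ξ.Univ) (j : J) (i : io j) {l : ℕ} (hl : l ≤ d j) :
    tc ξ A j i l ≠ 0 := by
  have h1 := univ_coeff_ne (univ_sh h hu) j i hl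
  change (sc _ _ _).coeff l ≠ 0 at h1
  rw [coeff_sc] at h1
  exact left_ne_zero_of_mul h1

theorem tc_eq {j : J} {i : io j} {l : ℕ} (hl : d j < l) : tc ξ A j i l = 0 :=
  coeff_eq_zero_of_natDegree_lt (by rw [natDegree_taylor]; exact (ξ.cp.1 j i).trans_lt hl)

theorem exists_E (h : Shp ξ o a b e A R B) (hu : ξ.Univ) (hy : IsTy d m n S o a b e)
    (i₀ : (j : J) → io j) {j : J} {i₁ : io j} (hi : i₁ ≠ i₀ j) {l₁ : ℕ} (hl : l₁ ≤ d j) :
    ∃ E : IntermediateField ℂ K, B - algebraMap ℂ K A ∈ E ∧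
      (∀ i l, i ≠ i₁ ∨ l ≠ l₁ → tc ξ A j i l / tc ξ A j (i₀ j) (m j) ∈ E) ∧
      Transcendental E (tc ξ A j i₁ l₁ / tc ξ A j (i₀ j) (m j)) := by
  have hρ := rho_ne h
  have hm : ∀ j, m j ≤ d j := fun j => hy.add j ▸ Nat.le_add_right _ _
  let p0 : (j : J) → io j × Fin (d j + 1) := fun j => (i₀ j, ⟨m j, Nat.lt_succ_of_le (hm j)⟩)
  have hI := (indep_gen (univ_sh h hu) (p0 := p0) (nm3_sh h)
    fun j => univ_coeff_ne (univ_sh h hu) j _ (hm j)).2
  set u := gen (sh ξ (algebraMap ℂ K A) _ (rho_ne h)) p0 o a e with hu'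
  let x₁ : Ix p0 o a e := .inl ⟨j, ⟨(i₁, ⟨l₁, Nat.lt_succ_of_le hl⟩), fun h => hi (Prod.mk.inj h).1⟩⟩
  let E := IntermediateField.adjoin ℂ (u '' {x₁}ᶜ)
  have hρE : algebraMap ℂ K (R - A) ∈ E := E.algebraMap_mem _
  have hv : ∀ (p : io j × Fin (d j + 1)) (hp : p ≠ p0 j),
      tc ξ A j p.1 p.2 / tc ξ A j (i₀ j) (m j) = u (.inl ⟨j, ⟨p, hp⟩⟩) *
        (algebraMap ℂ K (R - A) ^ m j / algebraMap ℂ K (R - A) ^ (p.2 : ℕ)) := fun p hp => by
    have h0 := tc_ne h hu j (i₀ j) (hm j)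
    change _ = (sc _ _ _).coeff _ / (sc _ _ (ξ.f j (i₀ j))).coeff (m j) * _
    rw [coeff_sc, coeff_sc]
    field_simp
  refine ⟨E, ?_, fun i l hil => ?_, ?_⟩
  · have hb : b ≠ o ∧ b ≠ a ∧ b ≠ e := by
      refine ⟨fun h1 => hy.o (h1 ▸ hy.b), fun h1 => h.ab ?_, fun h1 => hy.e (h1 ▸ hy.b)⟩
      have h2 := h.b
      rw [h1, h.a] at h2
      exact (Option.some.inj h2).symm
    have h1 : u (.inr ⟨b, hb⟩) ∈ E :=
      IntermediateField.subset_adjoin _ _ ⟨_, fun h => Sum.inr_ne_inl h, rfl⟩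
    have h2 : u (.inr ⟨b, hb⟩) = (B - algebraMap ℂ K A) / algebraMap ℂ K (R - A) := by
      change (nx _ _ (ξ.x b)).getD 0 = _
      rw [h.b]; rfl
    have h3 := E.mul_mem h1 hρE
    rwa [h2, div_mul_cancel₀ _ hρ] at h3
  · by_cases h1 : d j < l
    · rw [tc_eq h1, zero_div]; exact E.zero_mem
    let p : io j × Fin (d j + 1) := (i, ⟨l, Nat.lt_succ_of_le (not_lt.1 h1)⟩)
    by_cases hp : p = p0 j
    · obtain ⟨rfl, h2⟩ := Prod.mk.inj hp
      obtain rfl : l = m j := congrArg Fin.val h2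
      rw [div_self (tc_ne h hu j _ (hm j))]
      exact E.one_mem
    · rw [hv p hp]
      refine E.mul_mem (IntermediateField.subset_adjoin _ _ ⟨_, fun h2 => ?_, rfl⟩)
        (E.div_mem (pow_mem hρE _) (pow_mem hρE _))
      have h3 := Prod.mk.inj (congrArg Subtype.val (eq_of_heq (Sigma.mk.inj (Sum.inl.inj h2)).2))
      exact hil.elim (fun h4 => h4 h3.1) fun h4 => h4 (congrArg Fin.val h3.2)
  · rw [hv (i₁, ⟨l₁, Nat.lt_succ_of_le hl⟩) fun h => hi (Prod.mk.inj h).1]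
    refine trans_mul ?_ (E.div_mem (pow_mem hρE _) (pow_mem hρE _))
      (div_ne_zero (pow_ne_zero _ hρ) (pow_ne_zero _ hρ))
    exact IntermediateField.transcendental_adjoin_iff.2
      (hI.transcendental_adjoin (i := x₁) (by simp))

theorem exists_ne' (ξ : Dat io d M K) {j : J} (h : d j ≠ 0) (i : io j) : ∃ i', i' ≠ i :=
  have := (cp_cond ξ.cp j).2.resolve_left h
  exists_ne i

theorem cp_g1 (h : Shp ξ o a b e A R B) (hu : ξ.Univ) (hy : IsTy d m n S o a b e) :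
    Cp m fun j i => g1 (algebraMap ℂ K A) (B - algebraMap ℂ K A) (m j) (ξ.f j i) := by
  have hm : ∀ j, m j ≤ d j := fun j => hy.add j ▸ Nat.le_add_right _ _
  have ht := t_ne h
  choose i₀ _ using ξ.cp.2.1
  refine cp_of i₀ (fun j i => natDegree_g1 _ _ _ _) (fun j => ?_) fun j hj => ?_
  · rw [coeff_g1, if_pos le_rfl]
    exact div_ne_zero (mul_ne_zero (tc_ne h hu j _ (hm j)) (pow_ne_zero _ ht)) (pow_ne_zero _ ht)
  obtain ⟨i₁, hi⟩ := exists_ne' ξ (j := j) (fun h0 => hj (by have := hm j; omega)) (i₀ j)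
  obtain ⟨E, e1, e2, e3⟩ := exists_E h hu hy i₀ hi (Nat.zero_le _)
  have key : ∀ i l, l ≤ m j → (tc ξ A j (i₀ j) (m j))⁻¹ * (g1 (algebraMap ℂ K A)
      (B - algebraMap ℂ K A) (m j) (ξ.f j i)).coeff l = tc ξ A j i l / tc ξ A j (i₀ j) (m j) *
        ((B - algebraMap ℂ K A) ^ l / (B - algebraMap ℂ K A) ^ m j) := fun i l hl => by
    rw [coeff_g1, if_pos hl]
    ring
  have key2 : ∀ i l, i ≠ i₁ ∨ l ≠ 0 → (tc ξ A j (i₀ j) (m j))⁻¹ * (g1 (algebraMap ℂ K A)
      (B - algebraMap ℂ K A) (m j) (ξ.f j i)).coeff l ∈ E := fun i l hl => by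
    by_cases h1 : l ≤ m j
    · rw [key i l h1]
      exact E.mul_mem (e2 i l hl) (E.div_mem (pow_mem e1 _) (pow_mem e1 _))
    · rw [coeff_g1, if_neg h1, mul_zero]; exact E.zero_mem
  refine ⟨i₁, _, E, inv_ne_zero (tc_ne h hu j (i₀ j) (hm j)), fun l => key2 _ l (Or.inl hi.symm),
    fun l hl => key2 _ l (Or.inr hl), ?_⟩
  rw [key _ _ (Nat.zero_le _)]
  exact trans_mul e3 (E.div_mem (pow_mem e1 _) (pow_mem e1 _))
    (div_ne_zero (pow_ne_zero _ ht) (pow_ne_zero _ ht))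

theorem cp_g2 (h : Shp ξ o a b e A R B) (hu : ξ.Univ) (hy : IsTy d m n S o a b e) :
    Cp n fun j i => g2 (algebraMap ℂ K A) (algebraMap ℂ K (R - A)) (m j) (ξ.f j i) := by
  have hm : ∀ j, m j ≤ d j := fun j => hy.add j ▸ Nat.le_add_right _ _
  have hρ := rho_ne h
  choose i₀ _ using ξ.cp.2.1
  refine cp_of i₀ (fun j i => natDegree_g2 hρ _ (hy.add j ▸ ξ.cp.1 j i)) (fun j => ?_)
    fun j hj => ?_
  · rw [coeff_g2 hρ]
    exact mul_ne_zero (tc_ne h hu j _ (by have := hy.add j; omega)) (pow_ne_zero _ hρ)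
  obtain ⟨i₁, hi⟩ := exists_ne' ξ (j := j) (fun h0 => hj (by have := hy.add j; omega)) (i₀ j)
  obtain ⟨E, -, e2, e3⟩ := exists_E h hu hy i₀ hi (hm j)
  have hρE : algebraMap ℂ K (R - A) ∈ E := E.algebraMap_mem _
  have key : ∀ i l, (tc ξ A j (i₀ j) (m j))⁻¹ * (g2 (algebraMap ℂ K A)
      (algebraMap ℂ K (R - A)) (m j) (ξ.f j i)).coeff l =
        tc ξ A j i (l + m j) / tc ξ A j (i₀ j) (m j) * algebraMap ℂ K (R - A) ^ l := fun i l => by
    rw [coeff_g2 hρ]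
    ring
  refine ⟨i₁, _, E, inv_ne_zero (tc_ne h hu j (i₀ j) (hm j)), fun l => ?_, fun l hl => ?_, ?_⟩
  · rw [key]
    exact E.mul_mem (e2 _ _ (Or.inl hi.symm)) (pow_mem hρE _)
  · rw [key]
    exact E.mul_mem (e2 _ _ (Or.inr (by omega))) (pow_mem hρE _)
  · rw [key, zero_add, pow_zero, mul_one]
    exact e3

theorem r1_mem (m : J → ℕ) (S : Set M) (j : J) (i i' : io j) (l l' : ℕ) :
    (g1 (algebraMap ℂ K A) (B - algebraMap ℂ K A) (m j) (ξ.f j i)).coeff l /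
      (g1 (algebraMap ℂ K A) (B - algebraMap ℂ K A) (m j) (ξ.f j i')).coeff l' ∈
        kT ξ A R B m S :=
  IntermediateField.subset_adjoin _ _ (Or.inl (Or.inl (Or.inl ⟨j, i, i', l, l', rfl⟩)))

theorem r2_mem (m : J → ℕ) (S : Set M) (j : J) (i i' : io j) (l l' : ℕ) :
    (g2 (algebraMap ℂ K A) (algebraMap ℂ K (R - A)) (m j) (ξ.f j i)).coeff l /
      (g2 (algebraMap ℂ K A) (algebraMap ℂ K (R - A)) (m j) (ξ.f j i')).coeff l' ∈
        kT ξ A R B m S :=
  IntermediateField.subset_adjoin _ _ (Or.inl (Or.inl (Or.inr ⟨j, i, i', l, l', rfl⟩)))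

theorem x1_mem (m : J → ℕ) {i : M} (hi : i ∈ S) {y : K} (hy : ξ.x i = some y) :
    (y - algebraMap ℂ K A) / (B - algebraMap ℂ K A) ∈ kT ξ A R B m S :=
  IntermediateField.subset_adjoin _ _ (Or.inl (Or.inr ⟨i, hi, by rw [hy]; rfl⟩))

theorem x2_mem (m : J → ℕ) {i : M} (hi : i ∉ S) {y : K} (hy : ξ.x i = some y) :
    (y - algebraMap ℂ K A) / algebraMap ℂ K (R - A) ∈ kT ξ A R B m S :=
  IntermediateField.subset_adjoin _ _ (Or.inr ⟨i, hi, by rw [hy]; rfl⟩)

/-- the field of the chart and `t` generate -/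
theorem eq_top (h : Shp ξ o a b e A R B) (hu : ξ.Univ) (hy : IsTy d m n S o a b e)
    {F : IntermediateField ℂ K} (h1 : kT ξ A R B m S ≤ F) (h2 : B - algebraMap ℂ K A ∈ F) :
    F = ⊤ := by
  have hm : ∀ j, m j ≤ d j := fun j => hy.add j ▸ Nat.le_add_right _ _
  have hρ := rho_ne h
  have ht := t_ne h
  have hρF : algebraMap ℂ K (R - A) ∈ F := F.algebraMap_mem _
  have key : ∀ j i i' l, tc ξ A j i l / tc ξ A j i' (m j) ∈ F := fun j i i' l => by
    have h0 := tc_ne h hu j i' (hm j)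
    by_cases hl : l ≤ m j
    · have h3 := F.mul_mem (h1 (r1_mem m S j i i' l (m j)))
        (F.div_mem (pow_mem h2 (m j)) (pow_mem h2 l))
      rw [coeff_g1, coeff_g1, if_pos hl, if_pos le_rfl] at h3
      convert h3 using 1
      field_simp
    · have h3 := F.div_mem (h1 (r2_mem m S j i i' (l - m j) 0)) (pow_mem hρF (l - m j))
      rw [coeff_g2 hρ, coeff_g2 hρ, Nat.sub_add_cancel (by omega), zero_add] at h3
      convert h3 using 1
      field_simp
  rw [eq_top_iff, ← (univ_sh h hu).2.1, IntermediateField.adjoin_le_iff]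
  rintro y (⟨j, i, i', l, l', rfl⟩ | ⟨q, hq⟩)
  · change (sc _ _ _).coeff l / (sc _ _ _).coeff l' ∈ F
    rw [coeff_sc, coeff_sc, mul_div_mul_comm, ← div_div_div_cancel_right₀ (tc_ne h hu j i (hm j))]
    exact F.mul_mem (F.div_mem (key j i i l) (key j i' i l'))
      (F.div_mem (pow_mem hρF _) (pow_mem hρF _))
  · obtain ⟨z, hz, rfl⟩ := Option.map_eq_some_iff.1 hq
    by_cases hS : q ∈ S
    · have h3 := F.div_mem (F.mul_mem (h1 (x1_mem m hS hz)) h2) hρF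
      rwa [div_mul_cancel₀ _ ht] at h3
    · exact h1 (x2_mem m hS hz)

end Crest.Agent.X262.Ord23
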