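import Crest.Agent.X262.Ord23.Val
import Crest.Agent.X262.Ord23.Cop
import Crest.Agent.X262.DropP.Main

/-!
# Row 262, DROP-ORD (helper23), part 3: `ordStmt_of : PrmStmt → KtStmt → OrdStmt`
-/

set_option autoImplicit false
set_option linter.unusedSectionVars false

noncomputable section

namespace Crest.Agent.X262.Ord23

open Crest.Agent.X277 Crest.Agent.X277.BD Crest.Agent.X262.Vb Crest.Agent.X262.Vb37
open Crest.Agent.X262.Drop30 Crest.Agent.X262.Gen42 Crest.Agent.X262.Node22 Polynomial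

variable {J : Type} [Fintype J] [DecidableEq J] {io : J → Type} [∀ j, Fintype (io j)]
  [∀ j, DecidableEq (io j)] {K : Type} [Field K] [Algebra ℂ K] {d m n : J → ℕ} {M : Type}
  [Fintype M] {ξ : Dat io d M K} {o a b e : M} {A R : ℂ} {B : K} {S : Set M}

theorem count [Fintype (Mi S)] [Fintype (Mo S)] (hio : ∀ j, Nonempty (io j))
    (hy : IsTy d m n S o a b e) (hab : a ≠ b) (hoe : o ≠ e) :
    mdim io m (Fintype.card (Mi S)) + mdim io n (Fintype.card (Mo S)) + 1 =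
      mdim io d (Fintype.card M) + dimP io := by
  have h1 : Fintype.card (Mi S) = Nat.card {i // i ∈ S} + 1 := by
    rw [← Nat.card_eq_fintype_card, Finite.card_option]
  have h2 : Fintype.card (Mo S) = Nat.card {i // i ∉ S} + 1 := by
    rw [← Nat.card_eq_fintype_card, Finite.card_option]
  have h3 : Nat.card {i // i ∈ S} + Nat.card {i // i ∉ S} = Fintype.card M := by
    classical
    rw [← Nat.card_sum, ← Nat.card_eq_fintype_card]
    exact Nat.card_congr (Equiv.sumCompl _)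
  have h4 : 1 < Nat.card {i // i ∈ S} := Finite.one_lt_card_iff_nontrivial.2
    ⟨⟨a, hy.a⟩, ⟨b, hy.b⟩, fun h => hab (congrArg Subtype.val h)⟩
  have h5 : 1 < Nat.card {i // i ∉ S} := Finite.one_lt_card_iff_nontrivial.2
    ⟨⟨o, hy.o⟩, ⟨e, hy.e⟩, fun h => hoe (congrArg Subtype.val h)⟩
  have h6 : ∑ j, (Fintype.card (io j) * (m j + 1) - 1) + ∑ j, (Fintype.card (io j) * (n j + 1) - 1)
      = ∑ j, (Fintype.card (io j) * (d j + 1) - 1) + ∑ j, (Fintype.card (io j) - 1) := by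
    rw [← Finset.sum_add_distrib, ← Finset.sum_add_distrib]
    refine Finset.sum_congr rfl fun j _ => ?_
    have := hio j
    have h7 : 0 < Fintype.card (io j) := Fintype.card_pos
    rw [← hy.add j]
    simp only [mul_add, mul_one]
    omega
  rw [mdim, mdim, mdim, dimP, h1, h2]
  omega

theorem indep_of {ι : Type} [Finite ι] {w : ι → K} {r : ℕ} (h : Algebra.trdeg ℂ K = r)
    (hc : Nat.card ι = r) (h1 : IntermediateField.adjoin ℂ (Set.range w) = ⊤) :
    AlgebraicIndependent ℂ w := by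
  have : Algebra.IsAlgebraic (Algebra.adjoin ℂ (Set.range w)) K := by
    rw [← IntermediateField.isAlgebraic_adjoin_iff_top, h1, Algebra.isAlgebraic_iff_isIntegral]
    exact Algebra.isIntegral_of_surjective IntermediateField.topEquiv.surjective
  refine (Algebra.IsAlgebraic.isTranscendenceBasis_of_le_trdeg_of_finite ℂ _ ?_).1
  rw [h, ← hc, Nat.card, Cardinal.cast_toNat_of_lt_aleph0 (Cardinal.lt_aleph0_of_finite _)]

theorem chart (hP : PrmStmt io) (hK : KtStmt io) (h : Shp ξ o a b e A R B) (hu : ξ.Univ)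
    [Fintype (Mi S)] [Fintype (Mo S)] (hy : IsTy d m n S o a b e) :
    (∃ (η₁ : Dat io m (Mi S) (kT ξ A R B m S)) (η₂ : Dat io n (Mo S) (kT ξ A R B m S)),
      Chart ξ A R B S (kT ξ A R B m S).val η₁ η₂ ∧
      Univ2 η₁ none (some ⟨a, hy.a⟩) (some ⟨b, hy.b⟩) η₂ (some ⟨o, hy.o⟩) none (some ⟨e, hy.e⟩)) ∧
    Transcendental (kT ξ A R B m S) (B - algebraMap ℂ K A) := by
  have hm : ∀ j, m j ≤ d j := fun j => hy.add j ▸ Nat.le_add_right _ _
  have ht := t_ne h
  have hρ := rho_ne h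
  choose i₀ _ using ξ.cp.2.1
  let η₁ : Dat io m (Mi S) K := ⟨_, fun q => q.elim none fun i =>
    nx (algebraMap ℂ K A) (B - algebraMap ℂ K A) (ξ.x i.1), cp_g1 h hu hy⟩
  let η₂ : Dat io n (Mo S) K := ⟨_, fun q => q.elim (some 0) fun i =>
    nx (algebraMap ℂ K A) (algebraMap ℂ K (R - A)) (ξ.x i.1), cp_g2 h hu hy⟩
  have h0 : ∀ j, (η₁.f j (i₀ j)).coeff (m j) ≠ 0 := fun j => by
    change (g1 _ _ _ _).coeff _ ≠ 0
    rw [coeff_g1, if_pos le_rfl]
    exact div_ne_zero (mul_ne_zero (tc_ne h hu j _ (hm j)) (pow_ne_zero _ ht)) (pow_ne_zero _ ht)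
  have n1 : Nml η₁ none (some ⟨a, hy.a⟩) (some ⟨b, hy.b⟩) := by
    refine ⟨rfl, ?_, ?_⟩
    · change nx _ _ (ξ.x a) = _
      rw [h.a, nx, Option.map_some, sub_self, zero_div]
    · change nx _ _ (ξ.x b) = _
      rw [h.b, nx, Option.map_some, div_self ht]
  have n2 : Nml η₂ (some ⟨o, hy.o⟩) none (some ⟨e, hy.e⟩) :=
    ⟨(nm3_sh h).1, rfl, (nm3_sh h).2.2⟩
  have hnode : ∀ j i, (η₁.f j i).coeff (m j) = (η₂.f j i).coeff 0 := fun j i =>
    node_eq ht hρ _ _ _
  have hpar : Par (η₁.pt none) (η₂.pt (some 0)) := by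
    refine ⟨fun _ => 1, fun _ => one_ne_zero, ?_⟩
    ext j i
    change (η₁.f j i).coeff (m j) = 1 * eval 0 (η₂.f j i)
    rw [one_mul, ← coeff_zero_eq_eval_zero, hnode]
  obtain ⟨hc, hd⟩ := hP m n _ _ K η₁ η₂ _ _ _ _ _ _ i₀ n1 n2 hpar h0
  have hk := hK d m n M K ξ o a b e A R B S hy i₀ h h0
  obtain ⟨ζ₁, ζ₂, f1, f2, x1, x2, -, hU⟩ := hd _ hk
  have hab : a ≠ b := fun h1 => h.ab (by
    have h2 := h.b
    rw [← h1, h.a] at h2
    exact (Option.some.inj h2).symm)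
  have hcount := count (io := io) (fun j => ⟨i₀ j⟩) hy hab (nm3_sh h).ne.2.1
  have hI : AlgebraicIndependent ℂ fun q : Option _ =>
      q.elim (B - algebraMap ℂ K A) (cprm ξ o a b e A R B hy i₀) := by
    refine indep_of hu.2.2 ?_ (eq_top h hu hy ?_ ?_)
    · rw [Finite.card_option]
      omega
    · rw [hk]
      refine IntermediateField.adjoin.mono _ _ _ ?_
      rintro _ ⟨q, rfl⟩
      exact ⟨some q, rfl⟩
    · exact IntermediateField.subset_adjoin _ _ ⟨none, rfl⟩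
  obtain ⟨hI1, hI2⟩ := AlgebraicIndependent.option_iff.1 hI
  have hU' := hU hI1
  refine ⟨⟨ζ₁, ζ₂, ⟨⟨fun j => ((η₁.f j (i₀ j)).coeff (m j))⁻¹, fun j => inv_ne_zero (h0 j), f1,
    fun j i => ?_⟩, hU'.nml₁.1, hU'.nml₂.2.1, fun i => congrFun x1 (some i),
    fun i => congrFun x2 (some i)⟩, hU'⟩, ?_⟩
  · rw [f2, ← hnode]
  · rw [hk]
    exact IntermediateField.transcendental_adjoin_iff.2 hI2

theorem sub_ty (h : Shp ξ o a b e A R B) (hu : ξ.Univ) {m' n' : J → ℕ} {S' : Set M}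
    (hy : IsTy d m n S o a b e) (hy' : IsTy d m' n' S' o a b e) {V : RZ ℂ K}
    (ht : V.v (B - algebraMap ℂ K A) < 1) (h1 : ∀ x ∈ kT ξ A R B m S, x ∈ V.1)
    (h2 : ∀ x ∈ kT ξ A R B m' S', x ∈ V.1) : (∀ j, m' j ≤ m j) ∧ S ⊆ S' := by
  have ht0 := t_ne h
  have hρ := rho_ne h
  have hρ1 : V.v (algebraMap ℂ K (R - A)) = 1 :=
    v_one h1 ((kT ξ A R B m S).algebraMap_mem _) hρ
  refine ⟨fun j => not_lt.1 fun hj => ?_, fun i hi => by_contra fun hi' => ?_⟩
  · obtain ⟨i, -⟩ := ξ.cp.2.1 j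
    have hd : m j + 1 ≤ d j := by have := hy'.add j; omega
    have e0 := tc_ne h hu j i (Nat.le_of_succ_le hd)
    have e1 := tc_ne h hu j i hd
    have h3 := r2_mem (ξ := ξ) (A := A) (R := R) (B := B) m S j i i 1 0
    have h4 := r1_mem (ξ := ξ) (A := A) (R := R) (B := B) m' S' j i i (m j + 1) (m j)
    rw [coeff_g2 hρ, coeff_g2 hρ, zero_add, add_comm 1] at h3
    rw [coeff_g1, coeff_g1, if_pos (show m j + 1 ≤ m' j from hj), if_pos hj.le] at h4
    have h5 := v_one h1 h3 (div_ne_zero (mul_ne_zero e1 (pow_ne_zero _ hρ))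
      (mul_ne_zero e0 (pow_ne_zero _ hρ)))
    have h6 := v_one h2 h4 (div_ne_zero
      (div_ne_zero (mul_ne_zero e1 (pow_ne_zero _ ht0)) (pow_ne_zero _ ht0))
      (div_ne_zero (mul_ne_zero e0 (pow_ne_zero _ ht0)) (pow_ne_zero _ ht0)))
    have h7 : tc ξ A j i (m j + 1) * (B - algebraMap ℂ K A) ^ (m j + 1) /
        (B - algebraMap ℂ K A) ^ m' j / (tc ξ A j i (m j) * (B - algebraMap ℂ K A) ^ m j /
        (B - algebraMap ℂ K A) ^ m' j) = tc ξ A j i (m j + 1) * algebraMap ℂ K (R - A) ^ 1 /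
        (tc ξ A j i (m j) * algebraMap ℂ K (R - A) ^ 0) * (B - algebraMap ℂ K A) /
        algebraMap ℂ K (R - A) := by
      rw [pow_succ]
      field_simp
    rw [h7, map_div₀, map_mul, h5, hρ1, one_mul, div_one] at h6
    exact ht.ne h6
  · have hia : i ≠ a := fun h3 => hi' (h3 ▸ hy'.a)
    have hio : i ≠ o := fun h3 => hy.o (h3 ▸ hi)
    obtain ⟨y, hy1⟩ : ∃ y, ξ.x i = some y :=
      Option.ne_none_iff_exists'.1 fun h3 => hio (univ_inj hu (h3.trans h.o.symm))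
    have h0 : y - algebraMap ℂ K A ≠ 0 := fun h3 =>
      hia (univ_inj hu (by rw [hy1, h.a, sub_eq_zero.1 h3]))
    have h5 := v_one h1 (x1_mem m hi hy1) (div_ne_zero h0 ht0)
    have h6 := v_one h2 (x2_mem m' hi' hy1) (div_ne_zero h0 hρ)
    rw [map_div₀, hρ1, div_one] at h6
    rw [map_div₀, h6, one_div, inv_eq_one] at h5
    exact ht.ne h5

/-- **ORD** -/
theorem ordStmt_of (hP : PrmStmt io) (hK : KtStmt io) : OrdStmt io := by
  intro d M K _ _ _ ξ o a b e A R B h hu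
  refine ⟨fun m n S _ _ hy => ?_, fun m n m' n' S S' hy hy' V ht h1 h2 => ?_⟩
  · obtain ⟨h1, h2⟩ := chart hP hK h hu hy
    have := univ_essFT hu
    refine ⟨h1, exists_ord h2 ?_⟩
    rw [← IntermediateField.restrictScalars_eq_top_iff (K := ℂ)]
    refine eq_top h hu hy (fun x hx => ?_) ?_
    · exact (IntermediateField.adjoin (kT ξ A R B m S) _).algebraMap_mem ⟨x, hx⟩
    · exact IntermediateField.subset_adjoin (kT ξ A R B m S) _ rfl
  · obtain ⟨h3, h4⟩ := sub_ty h hu hy hy' ht h1 h2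
    obtain ⟨h5, h6⟩ := sub_ty h hu hy' hy ht h2 h1
    exact ⟨_root_.funext fun j => le_antisymm (h5 j) (h3 j), h4.antisymm h6⟩

/-- **ORD**, unconditional -/
theorem ordStmt : OrdStmt io := ordStmt_of DropP.prmStmt DropP.ktStmt

end Crest.Agent.X262.Ord23
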