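import Crest.Agent.X262.Wd54.Gx

/-!
# Row 262, DROP-ORD (helper23), part 1: the valuation `ord_t` of `k(t)`

`exists_ord` : if `K = k(t)` with `t` transcendental over `k`, there is exactly one valuation ring
containing `k` with `|t| < 1`; it is divisorial, with uniformiser `t` and residue field `k`.
-/

set_option autoImplicit false
set_option linter.unusedSectionVars false

noncomputable section

namespace Crest.Agent.X262.Ord23

open Crest.Agent.X277 Crest.Agent.X277.BD Crest.Agent.X277.Pst Crest.Agent.X277.BD.Cyc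
open Crest.Agent.X277.Neg (nv)
open Crest.Agent.X262.Geo Crest.Agent.X262.Wd Polynomial WithZero

variable {K : Type} [Field K] [Algebra ℂ K] {k : IntermediateField ℂ K} {t : K} {V : RZ ℂ K}

theorem v_one (hV : ∀ x ∈ k, x ∈ V.1) {x : K} (hx : x ∈ k) (h0 : x ≠ 0) : V.v x = 1 :=
  v_of_mem (β := k.val) (fun b => hV b b.2) (b := ⟨x, hx⟩) fun h => h0 (congrArg Subtype.val h)

theorem aeval_mem (hV : ∀ x ∈ k, x ∈ V.1) (ht : t ∈ V.1) (p : k[X]) : aeval t p ∈ V.1 := by
  rw [aeval_eq_sum_range]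
  refine sum_mem fun i _ => ?_
  rw [Algebra.smul_def]
  exact mul_mem (hV _ (p.coeff i).2) (pow_mem ht i)

theorem v_sub_lt (hV : ∀ x ∈ k, x ∈ V.1) (ht : V.v t < 1) (p : k[X]) :
    V.v (aeval t p - (p.coeff 0 : k)) < 1 := by
  have h1 : aeval t p - (p.coeff 0 : k) = t * aeval t p.divX := by
    conv_lhs => rw [← X_mul_divX_add p]
    rw [map_add, map_mul, aeval_X, aeval_C, coeff_add, mul_coeff_zero, coeff_X_zero, zero_mul,
      zero_add, coeff_C_zero]
    exact add_sub_cancel_right _ _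
  rw [h1, map_mul]
  exact mul_lt_one_of_lt_of_le ht (RZ.le_one_iff.2 (aeval_mem hV (RZ.le_one_iff.1 ht.le) _))

theorem v_aeval (hV : ∀ x ∈ k, x ∈ V.1) (ht : V.v t < 1) {p : k[X]} (hp : p.coeff 0 ≠ 0) :
    V.v (aeval t p) = 1 := by
  have h1 : V.v ((p.coeff 0 : k) : K) = 1 := v_one hV (p.coeff 0).2 fun h => hp (Subtype.ext h)
  have h2 := V.v.map_add_eq_of_lt_left (x := ((p.coeff 0 : k) : K))
    (y := aeval t p - (p.coeff 0 : k)) (by rw [h1]; exact v_sub_lt hV ht p)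
  rwa [add_sub_cancel, h1] at h2

/-- the normal form `t ^ n p(t) / q(t)` -/
theorem exists_nf (ht : t ≠ 0) (hg : IntermediateField.adjoin k {t} = ⊤) {x : K} (h0 : x ≠ 0) :
    ∃ (n : ℤ) (p q : k[X]), p.coeff 0 ≠ 0 ∧ q.coeff 0 ≠ 0 ∧
      x = t ^ n * (aeval t p / aeval t q) := by
  have hx : x ∈ IntermediateField.adjoin k {t} := hg ▸ IntermediateField.mem_top
  obtain ⟨r, s, rfl⟩ := (IntermediateField.mem_adjoin_simple_iff _ _).1 hx
  have hr : r ≠ 0 := fun h => h0 (by rw [h, map_zero, zero_div])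
  have hs : s ≠ 0 := fun h => h0 (by rw [h, map_zero, div_zero])
  obtain ⟨p, hp, hp'⟩ := exists_eq_pow_rootMultiplicity_mul_and_not_dvd r hr 0
  obtain ⟨q, hq, hq'⟩ := exists_eq_pow_rootMultiplicity_mul_and_not_dvd s hs 0
  rw [map_zero, sub_zero] at hp hq hp' hq'
  refine ⟨(rootMultiplicity 0 r : ℤ) - rootMultiplicity 0 s, p, q, fun h => hp' (X_dvd_iff.2 h),
    fun h => hq' (X_dvd_iff.2 h), ?_⟩
  conv_lhs => rw [hp, hq]
  rw [map_mul, map_mul, map_pow, map_pow, aeval_X, zpow_sub₀ ht, zpow_natCast, zpow_natCast,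
    mul_div_mul_comm]

theorem v_nf (hV : ∀ x ∈ k, x ∈ V.1) (ht : V.v t < 1) (n : ℤ) {p q : k[X]} (hp : p.coeff 0 ≠ 0)
    (hq : q.coeff 0 ≠ 0) : V.v (aeval t p / aeval t q) = 1 ∧
      V.v (t ^ n * (aeval t p / aeval t q)) = V.v t ^ n := by
  have h1 : V.v (aeval t p / aeval t q) = 1 := by
    rw [map_div₀, v_aeval hV ht hp, v_aeval hV ht hq, div_one]
  exact ⟨h1, by rw [map_mul, h1, mul_one, map_zpow₀]⟩

theorem dim_adj [Algebra.EssFiniteType ℂ K] (ht : Transcendental k t)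
    (hg : IntermediateField.adjoin k {t} = ⊤) : dim ℂ K = dim ℂ k + 1 := by
  have := essFT_of_hom k.val
  have h1 := trdeg_add_eq ℂ k (A := K)
  have h2 : IsTranscendenceBasis k ![t] := by
    rw [AlgebraicIndependent.isTranscendenceBasis_iff_isAlgebraic
      (algebraicIndependent_iff_transcendental.2 ht), ← IntermediateField.isAlgebraic_adjoin_iff_top,
      Matrix.range_cons_empty, hg, Algebra.isAlgebraic_iff_isIntegral]
    exact Algebra.isIntegral_of_surjective IntermediateField.topEquiv.surjective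
  rw [← h2.cardinalMk_eq_trdeg, trdeg_eq_dim, trdeg_eq_dim, Cardinal.mk_fin] at h1
  exact_mod_cast h1.symm

/-- **the valuation `ord_t`** -/
theorem exists_ord [Algebra.EssFiniteType ℂ K] (ht : Transcendental k t)
    (hg : IntermediateField.adjoin k {t} = ⊤) :
    ∃ (V : RZ ℂ K) (hV : ∀ x, k.val x ∈ V.1), Dvs V ∧ od V (pr ℂ t) = -1 ∧
      Function.Bijective (rt k.val V hV) ∧
      ∀ V' : RZ ℂ K, (∀ x ∈ k, x ∈ V'.1) → V'.v t < 1 → V' = V := by
  have h0 : t ≠ 0 := fun h => ht (h ▸ isAlgebraic_zero)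
  have hP : (Ideal.span {(X : k[X])}).IsPrime := (Ideal.span_singleton_prime X_ne_zero).2 prime_X
  obtain ⟨W, h1, h2⟩ := Cns.exists_val ((aeval t : k[X] →ₐ[k] K) : k[X] →+* K) (Ideal.span {X})
    fun a ha => by
      rw [transcendental_iff.1 ht a ha]
      exact zero_mem _
  have hk : ∀ x ∈ k, x ∈ W := fun x hx => by simpa using h1 (C ⟨x, hx⟩)
  let V : RZ ℂ K := ⟨W, fun c => hk _ (k.algebraMap_mem c)⟩
  have hkV : ∀ x ∈ k, x ∈ V.1 := hk
  have htV : V.v t < 1 := by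
    have h3 := (h2 X).not.2 (not_not.2 (Ideal.mem_span_singleton_self _))
    rw [Cns.un_iff_val, RingHom.coe_coe, aeval_X] at h3
    have h4 : t ∈ W := by simpa using h1 X
    exact lt_of_le_of_ne (RZ.le_one_iff.2 h4) h3
  have key : ∀ V' : RZ ℂ K, V'.v t < 1 → ∀ n : ℤ, V'.v t ^ n ≤ 1 ↔ 0 ≤ n := fun V' h n =>
    zpow_le_one_iff_right_of_lt_one₀ (RZ.pos h0) h
  have hb : Function.Bijective (rt k.val V fun x => hkV x x.2) := by
    refine ⟨(rt k.val V fun x => hkV x x.2).injective, fun y => ?_⟩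
    by_cases hy : y = 0
    · exact ⟨0, by rw [hy, map_zero]⟩
    obtain ⟨x, hx, rfl⟩ := rr_surj V y
    have hx1 : V.v x = 1 := rr_ne_zero.1 hy
    obtain ⟨n, p, q, hp, hq, rfl⟩ := exists_nf h0 hg (RZ.ne_zero_iff.1 (hx1 ▸ one_ne_zero))
    have h3 := (v_nf hkV htV n hp hq).2
    rw [hx1, eq_comm, zpow_eq_one_iff_right₀ (RZ.pos h0).le htV.ne] at h3
    subst h3
    have h4 : ∀ s : k[X], rr V (aeval t s) = rt k.val V (fun x => hkV x x.2) (s.coeff 0) :=
      fun s => by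
      have h5 := aeval_mem hkV (RZ.le_one_iff.1 htV.le) s
      have h6 : ((s.coeff 0 : k) : K) ∈ V.1 := hkV _ (s.coeff 0).2
      have h7 := (rr_eq_zero (sub_mem h5 h6)).2 (v_sub_lt hkV htV s)
      rw [rr, Pl.r_sub h5 h6, sub_eq_zero] at h7
      exact h7
    refine ⟨p.coeff 0 / q.coeff 0, ?_⟩
    rw [zpow_zero, one_mul, map_div₀, ← h4, ← h4]
    exact (Pl.r_div (p := plV V) (aeval_mem hkV (RZ.le_one_iff.1 htV.le) p)
      (v_aeval hkV htV hq)).symm
  have := essFT_of_hom k.val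
  let e := AlgEquiv.ofBijective _ hb
  have : Algebra.EssFiniteType ℂ (Rf V) := Algebra.EssFiniteType.of_surjective e.toAlgHom hb.2
  have hD : Dvs V := by
    refine dvs_of_dim (fun h => ?_) ?_
    · have h3 : t⁻¹ ∈ V.1 := h ▸ ValuationSubring.mem_top _
      rw [← RZ.le_one_iff, map_inv₀, inv_le_one₀ (RZ.pos h0)] at h3
      exact not_le.2 htV h3
    · have h3 := e.trdeg_eq (R := ℂ)
      rw [trdeg_eq_dim, trdeg_eq_dim] at h3
      rw [dim_adj ht hg, Nat.cast_injective h3]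
  refine ⟨V, fun x => hkV x x.2, hD, ?_, hb, fun V' hV' ht' => ?_⟩
  · obtain ⟨s, hs⟩ := nv_unif hD
    have hs0 : s ≠ 0 := fun h => exp_ne_zero (by rw [← hs, h, map_zero])
    obtain ⟨n, p, q, hp, hq, rfl⟩ := exists_nf h0 hg hs0
    rw [map_mul, (nv_eq_one hD).2 (v_nf hkV htV n hp hq).1, mul_one, map_zpow₀] at hs
    have h3 : nv V t ≠ 0 := (Valuation.ne_zero_iff _).2 h0
    have h4 : log (nv V t) < 0 := by
      rw [← exp_lt_exp, exp_log h3, exp_zero]
      exact (nv_lt_one hD).2 htV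
    rw [od_pr h0]
    rw [← exp_log h3, ← exp_zsmul, exp_inj, smul_eq_mul] at hs
    rcases Int.eq_one_or_neg_one_of_mul_eq_neg_one' hs with h | h
    · exact h.2
    · omega
  · refine Subtype.ext (ValuationSubring.ext _ _ fun x => ?_)
    by_cases hx : x = 0
    · simp [hx]
    obtain ⟨n, p, q, hp, hq, rfl⟩ := exists_nf h0 hg hx
    rw [← RZ.le_one_iff, ← RZ.le_one_iff, (v_nf hV' ht' n hp hq).2, (v_nf hkV htV n hp hq).2,
      key V' ht', key V htV]

end Crest.Agent.X262.Ord23
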